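import Mathlib
import Vale.Agent.P006.L.All

namespace Vale.Agent.Results.P006.CubicSieve
open Vale.Agent.P026

theorem result : ∃ C : ℝ, ∀ (M X : ℝ) (S T : Finset O) (a : O → ℂ), 0 < M → 0 < X →
    (∀ m ∈ S, Prim m ∧ Squarefree m ∧ N m ≤ M) → (∀ n ∈ T, Prim n ∧ Squarefree n ∧ N n ≤ X) →
    ∑ m ∈ S, ‖∑ n ∈ T, a n * cub m n‖ ^ 2 ≤ C * (M + X + (M * X) ^ (2 / 3 : ℝ)) * ∑ n ∈ T, ‖a n‖ ^ 2 := by
  obtain ⟨C, -, h⟩ := Vale.Agent.P006.LAll.sl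
  exact ⟨C, fun M X S T a hM hX hS hT => h M X hM hX S T a
    (fun m hm => ⟨⟨(hS m hm).1, (hS m hm).2.1⟩, (hS m hm).2.2⟩)
    fun n hn => ⟨⟨(hT n hn).1, (hT n hn).2.1⟩, (hT n hn).2.2⟩⟩

end Vale.Agent.Results.P006.CubicSieve
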