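import Mathlib
import Vale.Agent.P006.F.Fin

/-!
Patterson's first moment conjecture for cubic Gauss sums, rational form.

Outline of the proof (files under Vale/Agent/P006):
* Z0, Z1: dictionary between Kummer sums, the Gauss sums of the problem and theta coefficients.
* T0, A: functional equation of the cubic theta function, continuation of the twisted
  Dirichlet series, pole at 5/6.
* K: the exact value of the residue.
* L: the cubic large sieve without the epsilon loss.
* B, C: character sums over rough numbers (zero-free half planes for the Hecke L-functions
  on average, from the files under Vale/Agent/P026).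
* D: the dispersion estimate (the large sieve is corrected by its main term).
* MI: the type I estimate on average beyond level one half.
* M: the Heath-Brown identity, reduction to boxes, type I and type II ranges.
* S: from the smooth cutoff to the sharp cutoff (large sieve in thin annuli),
  comparison with the prime ideal theorem, removal of the logarithm.
* F: assembly.

The statement below uses Mathlib only.
-/

namespace Vale.Agent.Results.P006.Patterson

theorem result : Filter.Tendsto (fun X : ℝ =>
    (∑ p ∈ (Finset.range (⌊X⌋₊ + 1)).filter (fun p : ℕ => p.Prime ∧ p % 3 = 1),
      (∑ x ∈ Finset.range p, Complex.exp (2 * Real.pi * Complex.I * ((x : ℂ) ^ 3 / (p : ℂ)))) /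
        (2 * (Real.sqrt p : ℂ))) /
    (((2 * Real.pi) ^ (2 / 3 : ℝ) / (5 * Real.Gamma (2 / 3)) * (X ^ (5 / 6 : ℝ) / Real.log X) : ℝ) : ℂ))
    Filter.atTop (nhds 1) :=
  Vale.Agent.P006.sharp_rat Vale.Agent.P006.sharp

end Vale.Agent.Results.P006.Patterson
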