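import Mathlib
import Vale.Agent.P006.F.Fin

noncomputable section
open Complex Filter Topology
open scoped ComplexConjugate

namespace Vale.Agent.Results.P006.PattersonG
open Vale.Agent.P026

/-- normalised cubic Gauss sum at a primary prime -/
def G (p : O) : ℂ := (Real.sqrt (N p) : ℂ)⁻¹ *
  ∑ v ∈ Rs p, cubP v p * cexp (2 * Real.pi * I * (toC v / toC p + conj (toC v / toC p)))

/-- primary primes of norm at most `X` -/
def PX (X : ℝ) : Set O := {p | Prime p ∧ Prim p ∧ N p ≤ X}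

theorem result : (∀ X : ℝ, (PX X).Finite) ∧
    Tendsto (fun X : ℝ => (∑ᶠ p ∈ PX X, G p) / ((X ^ (5 / 6 : ℝ) / Real.log X : ℝ) : ℂ)) atTop
      (𝓝 ((6 / 5 * ((2 * Real.pi) ^ (2 / 3 : ℝ) / (3 * Real.Gamma (2 / 3))) : ℝ) : ℂ)) := by
  have e : ∀ X, PX X = ↑(Vale.Agent.P006.PP X) := fun X => by
    ext p
    simp only [PX, Set.mem_ofPred_eq, Finset.mem_coe, Vale.Agent.P006.Z0.mem_PP]
    tauto
  refine ⟨fun X => e X ▸ Finset.finite_toSet _,
    (Vale.Agent.P006.sharp_GG Vale.Agent.P006.sharp).congr fun X => ?_⟩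
  rw [e, finsum_mem_coe_finset]
  congr 1
  refine Finset.sum_congr rfl fun p _ => ?_
  unfold G Vale.Agent.P006.GG Vale.Agent.P006.ee
  simp only [add_conj]

end Vale.Agent.Results.P006.PattersonG
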